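import Crest.Agent.X212.End23.Nek
import Crest.Agent.X212.Sw.Fam

/-!
# Row 212, RAD-TW (helper9): the leaves of `Rad94.SmallStmt`
-/

set_option autoImplicit false
set_option linter.unusedSectionVars false
noncomputable section
open scoped Manifold ContDiff Topology InnerProductSpace
open MeasureTheory Set Function Filter

namespace Crest.Agent.X212.Rtw9
open An Cyf70 Sw Sw.En3 End23
open Nd18 (Jv)
open M (Mf)

variable {κ lam ν : Type} [Fintype κ] [Fintype lam] [Fintype ν] [DecidableEq ν]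

/-- the window at `x₀` -/
def Wn {X : Mf 4} {nc : ℕ} {N : Type} {e : N → En3 κ lam ν} (P : Pz X nc e) (x₀ : X.M) : Set X.M :=
  {x | ∀ i, ∀ K ∈ P.nk i, |K.τ x - K.τ x₀| ≤ 2}

/-- no growth above the size one -/
def Up {e : En3 κ lam ν} (M : ℝ) (A : e.ZC) (I : Set ℝ) : Prop :=
  ∀ s ∈ I, ∀ t ∈ I, s ≤ t → nm (sl A t) ≤ M * max (nm (sl A s)) 1

variable (κ lam ν)

/-- SUP: from the mass of the windows to the supremum, uniformly in the scale -/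
def SupStmt : Prop := ∀ (N : Type) [Fintype N] (e : N → En3 κ lam ν) (C : ℕ → ℝ) (B R L : ℝ),
  ∃ K : ℝ, ∀ w > 0, ∀ (b : N → ℝ → ℝ) (S : N → Set ℝ) (ψ : N → ℝ → ℝ), (∀ i r, b i r ≤ B) →
    ∀ (X : Mf 4) (nc : ℕ) (P : Pz X nc fun i => (e i).re w (b i) (S i) (ψ i)), P.OK → P.bg.Bd C →
    P.bg.w = w → ∀ c, P.bg.Adm c →
    (∀ x, P.bg.eD c x = P.p0.D c x ∧ ‖P.bg.eC c x - P.p0.C c x‖ ≤ R) →
    (∀ x₀, ∫⁻ x in Wn P x₀, ‖c.Φ x‖ₑ ^ 2 ∂P.bg.F.μ ≤ ENNReal.ofReal L) → ∀ x, ‖c.Φ x‖ ≤ K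

/-- NECK-UP: bounded frequency forwards or no growth backwards -/
def UpStmt : Prop := ∀ (e : En3 κ lam ν) u, Kn e u → ∀ C : ℝ, ∃ M ≥ (1 : ℝ), ∃ η > 0,
  ∀ c ≥ M, ∀ K : ℝ, ∃ w₀ > 0, ∀ w ∈ Ioc 0 w₀, ∀ S ψ, (lv e c w S ψ).OK →
    ∀ p q (A : (lv e c w S ψ).ZC), NS p q C η A → Sb A (Jv p q) K →
    (∀ t ∈ Jv p q, 0 < nm (sl A t)) → ∀ s ∈ Jd p q (1 / 4),
      Fw M A (Jd p q (1 / 4) ∩ Ici s) ∨ Up M A (Jd p q (1 / 4) ∩ Iic s)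

end Crest.Agent.X212.Rtw9
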