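import Crest.Agent.X212.End23.Tw
import Crest.Agent.X212.Sw88.RadA

/-!
# Row 212, RAD-TW (helper9): degrees and levels of the tower
-/

set_option autoImplicit false
set_option linter.unusedSectionVars false
noncomputable section
open scoped Manifold ContDiff Topology InnerProductSpace
open MeasureTheory Set Function Filter

namespace Crest.Agent.X212.Rtw9
open An Cyf70 Sw Sw.En3 End23
open Flo2 (Mk Gr Ty End bm)
open Sw88 (Ew)

variable {κ lam ν : Type} [Fintype κ] [Fintype lam] [Fintype ν] [DecidableEq ν]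

theorem red_zero {e : En3 κ lam ν} (h : Rad94.Rd0 e) : Red (⟨0, 0⟩ : (lf e).YC) := by
  have z : fz (⟨0, 0⟩ : e.YC) = ⟨0, 0⟩ := Sw.Cfg.ext (funext fun o => by cases o <;> rfl) rfl
  refine red_cv (e := e) (w := e.w) (b := e.b) (S := e.S) (ψ := e.ψ) (θ := ⟨0, 0⟩)
    ⟨⟨Sw88.adm_zero, fun k y => ?_, fun y => ?_⟩, rfl⟩
  · change 2 * (e.cyl.eC (fz ⟨0, 0⟩) _ + deriv e.f _ • _) _ = 0
    rw [z, h.red, h.f]
    simp
  · change -e.m.ρ none y (e.cyl.eD (fz ⟨0, 0⟩) _) - _ • (0 : Eu ν) = 0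
    rw [z]
    simp [Bg.eD, Wz78.dir, Wz78.nab, Sob92.dv_const, Pi.zero_def]

theorem ev_iff {e : En3 κ lam ν} {l : ℝ} : Rad94.Ev e l ↔ l ∈ spec (⟨0, 0⟩ : (lf e).YC) :=
  ⟨fun ⟨φ, ⟨h1, h2⟩, a⟩ => ⟨φ, a, ⟨h1.1, h1.2, h1.3, h1.4⟩, congrFun h2⟩,
    fun ⟨φ, a, h1, h2⟩ => ⟨φ, ⟨⟨h1.1, h1.2, h1.3, h1.4⟩, funext h2⟩, a⟩⟩

variable {G : Gr κ lam ν} {mk : Mk κ lam ν} {ρ : Ty κ lam ν → ℚ} (H : LA κ lam ν) (m : Mks G mk ρ)
include H

theorem deg_mono {e : En3 κ lam ν} {M : (lf e).Gen} (hM : Mo M) (j : M.ρ) {l l' : ℝ} (h : l ≤ l') :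
    Lb.deg (.inr (j, l) : Lb M) ≤ Lb.deg (.inr (j, l') : Lb M) ∧ (0 < l → l ∈ spec (M.θ j) → l < l' →
      Lb.deg (.inr (j, l) : Lb M) < Lb.deg (.inr (j, l') : Lb M)) := by
  have f : (spec (M.θ j) ∩ Ioo 0 l').Finite := ((H.gap _ hM.ok _ (hM.crit (.inr j)).1).1 |l'|).subset
    fun _ k => ⟨k.1, by linarith [k.2.1, abs_nonneg l'], k.2.2.le.trans (le_abs_self _)⟩
  have s := inter_subset_inter_right (spec (M.θ j)) (show Ioo 0 l ⊆ Ioo 0 l' from Ioo_subset_Ioo_right h)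
  simp only [Lb.deg, Sum.elim_inr]
  exact ⟨by linarith [Int.ofNat_le.2 (ncard_le_ncard s f)], fun a b c => by
    linarith [Int.ofNat_lt.2 (ncard_lt_ncard ((ssubset_iff_of_subset s).2
      ⟨l, ⟨b, a, c⟩, fun k => k.2.2.false⟩) f)]⟩

include m

theorem cls {ε : Ty κ lam ν} (a : ε.1.OK mk) (k : ε.1.kd = .qhs) {M : (lf ε.en).Gen} (hM : Mo M)
    {μ η : ℝ} (hμ : 0 < μ) (hη : 0 < η) : Ew (fun _ : Unit => ε) μ fun l Γ =>
      ∃ lab : (Γ.g ()).ι → Lb M, Injective lab ∧ (∀ o, o ∈ range lab ↔ o.In μ) ∧ ∀ i,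
        G.d l () ((Γ.g ()).x i) = ρ ε + (lab i).deg ∧
        (∀ o, lab i = .inl o → bm μ (nm ((Γ.g ()).x i)) = 0) ∧
        ∀ j r, lab i = .inr (j, r) → |bm μ (nm ((Γ.g ()).x i)) - r| ≤ η := by
  by_cases h : ∀ j, μ ∉ spec (M.θ j)
  · obtain ⟨w₀, h0, hw⟩ := H.crit _ M hM μ hμ h 0 η hη
    refine ⟨w₀, h0, ?_⟩
    rintro ⟨_, w, S, ψ⟩ rfl h2 Γ
    obtain ⟨S', ψ', g, lab, pk⟩ := hw w ⟨Γ.w0, h2⟩
    obtain ⟨f, hf, q⟩ := gen_iso (Γ.ok ()) pk.ok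
    have n := fun i => Pb50.Eqv.nm (Γ.ok ()).ok (q i)
    refine ⟨lab ∘ f, pk.inj.comp hf.1, fun o => by rw [hf.2.range_comp, pk.rng], fun i => ⟨?_,
      fun o k => Sw88.bm_zero (one_le_two.trans ((pk.old _ o k).2.trans_eq (n i).symm)),
      fun j l k => n i ▸ (pk.tow _ j l k).1⟩⟩
    have := m.gr ε a (by simp [k]) _ _ _ _ (Γ.ok ()).ok Γ.w0 (cv (g.x (f i))) (pk.ok.crit (.inl _))
      (nd_cv (pk.ok.nd (.inl _))) (pk.ok.irr _)
    exact (this.2 _ (q i)).trans (this.1.trans (congrArg (fun z : ℤ => ρ ε + z) (pk.mu (f i))))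
  · refine ⟨1, one_pos, ?_⟩
    rintro l rfl - Γ
    push Not at h
    obtain ⟨j, h⟩ := h
    have o := Γ.ok ()
    have r : Red (cv (M.θ j) : (l.e (fun _ : Unit => ε) ()).YC) :=
      red_cv ⟨hM.crit (.inr j), hM.red j⟩
    obtain ⟨p, k⟩ := o.all _ r.1
    have := ((H.bij.red _ o.ok o.w _ r).1 ((H.bij.eqv _ o.ok _ _ (o.crit p) k).1 (o.nd p))).2
    refine (this (spec_cv ?_)).elim
    change l.μ * prf 0 ∈ _
    rwa [prf_zero, mul_one]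

theorem lab {ε : Ty κ lam ν} (a : ε.1.OK mk) (k : ε.1.kd = .qhs) {M : (lf ε.en).Gen} (hM : Mo M)
    (hs : Subsingleton M.ρ) (j : M.ρ) {x : ℚ} (hx : ∀ o, ρ ε + Lb.deg (.inl o : Lb M) ≠ x)
    {μ η : ℝ} (hμ : 0 < μ) (hη : 0 < η) : Ew (fun _ : Unit => ε) μ fun l Γ => ∀ i,
      G.d l () ((Γ.g ()).x i) = x → ∃ r ∈ Ioo 0 μ, r ∈ spec (M.θ j) ∧
        ρ ε + Lb.deg (.inr (j, r) : Lb M) = x ∧ |bm μ (nm ((Γ.g ()).x i)) - r| ≤ η :=
  (cls H m a k hM hμ hη).mono fun _ _ _ ⟨lab, _, h1, h2⟩ i e => by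
    have b := (h1 _).1 ⟨i, rfl⟩
    have c := (h2 i).1.symm.trans e
    rcases q : lab i with o | ⟨j', r⟩ <;> rw [q] at b c
    · exact (hx o c).elim
    · obtain rfl := Subsingleton.elim j j'
      exact ⟨r, b.2, b.1, c, (h2 i).2.2 j r q⟩

/-- **RAD-TWHI** -/
theorem twhi : Rad94.TwHiStmt G mk := fun ε a k Λ => by
  obtain ⟨M, hM, -, -, hs⟩ := m.qhs _ (a.qhs k).1 ε.2
  obtain ⟨j⟩ := hM.ne
  obtain ⟨d, hd⟩ := (H.num.win _ M hM).2 Λ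
  refine ⟨ρ ε + d + 1, fun x hx => ?_⟩
  have u : ∀ o : Lb M, o.deg ≤ d → ρ ε + o.deg ≠ x := fun o h e => by
    linarith [(Int.cast_le (R := ℚ)).2 h]
  have v := fun μ hμ η hη => lab H m a k hM hs j (fun o => u _ (hd 0 _ trivial nofun)) (μ := μ)
    (η := η) hμ hη
  by_cases h : ∃ l > 0, l ∈ spec (M.θ j) ∧ ρ ε + Lb.deg (.inr (j, l) : Lb M) = x
  · obtain ⟨l, h1, h2, h3⟩ := h
    refine ⟨l, le_of_not_gt fun b => u _ (hd (l + 1) (.inr (j, l)) ⟨h2, h1, lt_add_one l⟩ ?_) h3,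
      fun μ hμ η hη => (v μ hμ η hη).mono fun _ _ _ b i e => ?_⟩
    · rintro _ _ ⟨⟩
      exact b.le
    obtain ⟨r, b1, b2, b3, b4⟩ := b i e
    have c := Int.cast_injective (add_left_cancel (b3.trans h3.symm))
    rcases lt_trichotomy r l with c' | rfl | c'
    exacts [(((deg_mono H hM j c'.le).2 b1.1 b2 c').ne c).elim, b4,
      (((deg_mono H hM j c'.le).2 h1 h2 c').ne' c).elim]
  · exact ⟨Λ, le_rfl, fun μ hμ η hη => (v μ hμ η hη).mono fun _ _ _ b i e =>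
      let ⟨r, b1, b2, b3, _⟩ := b i e; (h ⟨r, b1.1, b2, b3⟩).elim⟩

/-- **RAD-TWID** -/
theorem twid : Rad94.TwIdStmt G mk := fun ε a k r0 => by
  obtain ⟨M, hM, -, -, hs⟩ := m.qhs _ (a.qhs k).1 ε.2
  obtain ⟨j⟩ := hM.ne
  have ev : ∀ l, Rad94.Ev ε.en l ↔ l ∈ spec (M.θ j) := fun l => by
    obtain ⟨o | j', q⟩ := hM.all _ (red_zero r0).1
    · obtain ⟨y, hy⟩ := ne_eqv (Cyc79.eqv_symm hM.ok q) (hM.irr o)
      exact (hy rfl).elim
    obtain rfl := Subsingleton.elim j j'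
    rw [ev_iff, (H.bij.eqv _ hM.ok _ _ (hM.crit _) q).2.1]
    rfl
  have key : ∀ S : Set ℚ, (∀ x ∈ S, ∀ o, ρ ε + Lb.deg (.inl o : Lb M) ≠ x) →
      Rad94.TwId G ε (fun l => ρ ε + Lb.deg (.inr (j, l) : Lb M)) S := fun S hS => by
    refine ⟨fun l h l' _ c => add_lt_add_right (Int.cast_lt.2
      ((deg_mono H hM j c.le).2 h.1 ((ev l).1 h.2) c)) _, fun Λ => ⟨ρ ε + Lb.deg
        (.inr (j, Λ) : Lb M) + 1, fun l _ _ c => le_of_not_gt fun b => by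
          linarith [(Int.cast_le (R := ℚ)).2 (deg_mono H hM j b.le).1]⟩,
      fun x hx μ hμ η hη => (lab H m a k hM hs j (hS x hx) hμ hη).mono fun _ _ _ b i e =>
        (b i e).imp fun r c => ⟨c.1, (ev r).2 c.2.1, c.2.2⟩, fun l l0 hl μ hμ => ?_⟩
    obtain ⟨δ, δ0, hδ⟩ : ∃ δ > 0, ∀ r ∈ insert 0 (insert μ (spec (M.θ j) ∩ Icc (-μ) μ)),
        |r - l| < δ → r = l := by
      have f := ((((H.gap _ hM.ok _ (hM.crit (.inr j)).1).1 μ).insert μ).insert 0).sdiff (t := {l})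
      obtain ⟨δ, δ0, h⟩ := Metric.isOpen_iff.1 f.isClosed.isOpen_compl l fun b => b.2 rfl
      exact ⟨δ, δ0, fun r b c => by_contra fun n => h c ⟨b, n⟩⟩
    refine ⟨δ / 3, by positivity, fun η hη => (cls H m a k hM (l0.trans hμ)
      (lt_min hη (show 0 < δ / 3 by positivity))).mono fun lv Γ e ⟨lab, h0, h1, h2⟩ => ?_⟩
    obtain ⟨i, hi⟩ := (h1 (.inr (j, l))).2 ⟨(ev l).1 hl, l0, hμ⟩
    refine ⟨i, ((h2 i).2.2 j l hi).trans (min_le_left _ _), fun v c b => ?_⟩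
    have o := Γ.ok ()
    obtain ⟨p, q⟩ := o.all v c
    rw [Pb50.Eqv.nm o.ok q] at b
    rcases p with i' | j'
    · rcases t : lab i' with o' | ⟨j', r⟩
      · rw [show bm μ (nm ((Γ.g ()).pt (.inl i'))) = 0 from (h2 i').2.1 o' t] at b
        exact (l0.ne (hδ 0 (.inl rfl) (by linarith))).elim
      obtain rfl := Subsingleton.elim j j'
      have b1 := t ▸ (h1 _).1 ⟨i', rfl⟩
      have b2 := ((h2 i').2.2 j r t).trans (min_le_right _ _)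
      obtain rfl := hδ r (.inr (.inr ⟨b1.1, by linarith [b1.2.1, b1.2.2], b1.2.2.le⟩))
        ((abs_sub_le _ (bm μ (nm ((Γ.g ()).x i'))) _).trans_lt (by
          rw [abs_sub_comm]; linarith [show |bm μ (nm ((Γ.g ()).x i')) - l| ≤ δ / 3 from b]))
      exact h0 (t.trans hi.symm) ▸ q
    · rw [show bm μ (nm ((Γ.g ()).pt (.inr j'))) = μ by
        rw [show nm ((Γ.g ()).pt (.inr j')) = 0 by
          simp [nm, show ∀ y, ((Γ.g ()).pt (.inr j')).Φ y = 0 from o.red j']]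
        exact (congrArg (μ * ·) prf_zero).trans (mul_one μ)] at b
      exact (hμ.ne' (hδ μ (.inr (.inl rfl)) (by linarith))).elim
  refine ⟨_, ρ ε + (∑ o, |Lb.deg (.inl o : Lb M)| : ℤ) + 1, key _ fun x hx o e => ?_,
    fun ps => key _ fun _ _ o _ => ?_⟩
  · linarith [(Int.cast_le (R := ℚ)).2 ((le_abs_self _).trans (Finset.single_le_sum
      (f := fun o => |Lb.deg (.inl o : Lb M)|) (fun _ _ => abs_nonneg _) (Finset.mem_univ o))),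
      show _ ≤ x from hx]
  · obtain ⟨y, hy⟩ := hM.irr o
    exact hy (congrFun (m.psc _ ps ε.2 _ (hM.crit (.inl o))) y)

end Crest.Agent.X212.Rtw9
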